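import Vale.Agent.P073Z.PUSH.A

/-!
# The radial push of the cube; moving, shrinking, embedding
-/

open Set Metric Topology Filter
open scoped NNReal

namespace P073

open A2

namespace PU

variable {E F : Type} [NormedAddCommGroup E] [NormedSpace ℝ E]
  [NormedAddCommGroup F] [NormedSpace ℝ F]

/-- the point of `[s - c, s + c]` nearest to `σ s` -/
noncomputable def gq (σ c s : ℝ) : ℝ := min (max (σ * s) (s - c)) (s + c)

theorem gq_strictMono {σ : ℝ} (hσ : 0 < σ) (c : ℝ) : StrictMono (gq σ c) := fun a b h => by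
  unfold gq
  have h1 : σ * a < σ * b := mul_lt_mul_of_pos_left h hσ
  exact min_lt_min (max_lt_max h1 (by linarith)) (by linarith)

theorem gq_neg {σ c : ℝ} (hc : 0 ≤ c) (s : ℝ) : gq σ c (-s) = -gq σ c s := by
  unfold gq
  simp only [min_def, max_def]
  split_ifs <;> linarith

theorem gq_of_nonneg {σ c s : ℝ} (h1 : σ ≤ 1) (hc : 0 ≤ c) (hs : 0 ≤ s) :
    gq σ c s = max (σ * s) (s - c) := by
  unfold gq
  have : σ * s ≤ s := by nlinarith
  exact min_eq_left (max_le (by linarith) (by linarith))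

theorem gq_zero {σ c : ℝ} (hc : 0 ≤ c) : gq σ c 0 = 0 := by
  unfold gq
  simp only [min_def, max_def]
  split_ifs <;> linarith

theorem abs_gq {σ c : ℝ} (hσ : 0 < σ) (hc : 0 ≤ c) (s : ℝ) : |gq σ c s| = gq σ c |s| := by
  have h0 : ∀ t, 0 ≤ t → 0 ≤ gq σ c t := fun t ht => by
    rw [← gq_zero (σ := σ) hc]; exact (gq_strictMono hσ c).monotone ht
  rcases le_total 0 s with h | h
  · rw [abs_of_nonneg h, abs_of_nonneg (h0 s h)]
  · have := h0 (-s) (by linarith)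
    rw [abs_of_nonpos h, gq_neg hc] at *
    exact abs_of_nonpos (by linarith)

theorem gq_c_zero (σ s : ℝ) : gq σ 0 s = s := by
  unfold gq
  simp only [sub_zero, add_zero]
  exact min_eq_right (le_max_right _ _)

theorem gq_eq_mul {σ c s : ℝ} (h : |(1 - σ) * s| ≤ c) : gq σ c s = σ * s := by
  unfold gq
  obtain ⟨h1, h2⟩ := abs_le.1 h
  rw [max_eq_left (by linarith), min_eq_left (by linarith)]

theorem gq_surj (σ : ℝ) {c : ℝ} (hc : 0 ≤ c) (y : ℝ) : ∃ s, gq σ c s = y := by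
  have hc' : Continuous (gq σ c) := by unfold gq; fun_prop
  have h1 : gq σ c (y - c) ≤ y := (min_le_right _ _).trans (by linarith)
  have h2 : y ≤ gq σ c (y + c) := le_min ((le_max_right _ _).trans' (by linarith)) (by linarith)
  obtain ⟨s, -, hs⟩ := intermediate_value_Icc (by linarith : y - c ≤ y + c) hc'.continuousOn ⟨h1, h2⟩
  exact ⟨s, hs⟩

theorem norm_gq {n : ℕ} {σ c : ℝ} (hσ : 0 < σ) (hc : 0 ≤ c) (x : Fin n → ℝ) :
    ‖fun i => gq σ c (x i)‖ = gq σ c ‖x‖ := by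
  have h0 : 0 ≤ gq σ c ‖x‖ := by
    rw [← gq_zero (σ := σ) hc]; exact (gq_strictMono hσ c).monotone (norm_nonneg x)
  apply le_antisymm
  · refine (pi_norm_le_iff_of_nonneg h0).2 fun i => ?_
    rw [Real.norm_eq_abs, abs_gq hσ hc]
    exact (gq_strictMono hσ c).monotone (norm_le_pi_norm x i)
  · rcases Nat.eq_zero_or_pos n with h | h
    · subst h
      rw [Subsingleton.elim x 0, norm_zero, gq_zero hc]
      exact norm_nonneg _
    · have : Nonempty (Fin n) := ⟨⟨0, h⟩⟩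
      obtain ⟨i, -, hi⟩ := Finset.exists_max_image Finset.univ (fun i => ‖x i‖) Finset.univ_nonempty
      have h1 : ‖x‖ ≤ ‖x i‖ :=
        (pi_norm_le_iff_of_nonneg (norm_nonneg _)).2 fun j => hi j (Finset.mem_univ j)
      refine ((gq_strictMono hσ c).monotone h1).trans ?_
      rw [Real.norm_eq_abs, ← abs_gq hσ hc]
      exact norm_le_pi_norm (fun i => gq σ c (x i)) i

/-- the radial push: every coordinate moves towards `σ x i`, by at most `κ (b - ‖x‖)` -/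
noncomputable def rad {n : ℕ} (σ κ b : ℝ) (x : Fin n → ℝ) : Fin n → ℝ :=
  fun i => gq σ (κ * max (b - ‖x‖) 0) (x i)

section rad

variable {n : ℕ} {σ κ b : ℝ}

theorem pl_rad (n : ℕ) (σ κ b : ℝ) : PLOn (rad (n := n) σ κ b) univ := by
  have h0 : PLOn (fun x : Fin n → ℝ => κ * max (b - ‖x‖) 0) univ :=
    pl_mul κ (pl_max (pl_sub (pl_const _ conicalSet_univ) (pl_norm_pi n))
      (pl_const _ conicalSet_univ))
  refine pl_pi conicalSet_univ fun i => ?_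
  have h1 := pl_proj i (conicalSet_univ (E := Fin n → ℝ))
  exact pl_min (pl_max (pl_mul σ h1) (pl_sub h1 h0)) (pl_add h1 h0)

theorem rad_of_le {x : Fin n → ℝ} (h : b ≤ ‖x‖) : rad σ κ b x = x := by
  ext i
  unfold rad
  rw [max_eq_right (by linarith), mul_zero, gq_c_zero]

theorem rad_eq_smul (h1 : σ ≤ 1) (hκ : 0 ≤ κ) {x : Fin n → ℝ}
    (h : (1 - σ) * ‖x‖ ≤ κ * (b - ‖x‖)) : rad σ κ b x = σ • x := by
  ext i
  unfold rad
  rw [gq_eq_mul, Pi.smul_apply, smul_eq_mul]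
  rw [abs_mul, abs_of_nonneg (by linarith)]
  have a1 : |x i| ≤ ‖x‖ := norm_le_pi_norm x i
  have a2 : κ * (b - ‖x‖) ≤ κ * max (b - ‖x‖) 0 := mul_le_mul_of_nonneg_left (le_max_left _ _) hκ
  have a3 : (1 - σ) * |x i| ≤ (1 - σ) * ‖x‖ := mul_le_mul_of_nonneg_left a1 (by linarith)
  linarith

theorem norm_rad (hσ : 0 < σ) (h1 : σ ≤ 1) (hκ : 0 ≤ κ) (x : Fin n → ℝ) :
    ‖rad σ κ b x‖ = max (σ * ‖x‖) (‖x‖ - κ * max (b - ‖x‖) 0) := by
  have hc : 0 ≤ κ * max (b - ‖x‖) 0 := mul_nonneg hκ (le_max_right _ _)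
  rw [← gq_of_nonneg h1 hc (norm_nonneg x)]
  exact norm_gq hσ hc x

theorem norm_rad_le (hσ : 0 < σ) (h1 : σ ≤ 1) (hκ : 0 ≤ κ) (x : Fin n → ℝ) :
    ‖rad σ κ b x‖ ≤ ‖x‖ := by
  have hc : 0 ≤ κ * max (b - ‖x‖) 0 := mul_nonneg hκ (le_max_right _ _)
  have := norm_nonneg x
  rw [norm_rad hσ h1 hκ]
  exact max_le (by nlinarith) (by linarith)

theorem radN_strictMono (hσ : 0 < σ) (hκ : 0 ≤ κ) :
    StrictMono fun t : ℝ => max (σ * t) (t - κ * max (b - t) 0) := fun s t h => by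
  have h1 : σ * s < σ * t := mul_lt_mul_of_pos_left h hσ
  have h2 : κ * max (b - t) 0 ≤ κ * max (b - s) 0 :=
    mul_le_mul_of_nonneg_left (max_le_max (by linarith) le_rfl) hκ
  exact max_lt_max h1 (by linarith)

theorem rad_injective (hσ : 0 < σ) (h1 : σ ≤ 1) (hκ : 0 ≤ κ) :
    Function.Injective (rad (n := n) σ κ b) := fun x y h => by
  have a1 : ‖x‖ = ‖y‖ := by
    apply (radN_strictMono (b := b) hσ hκ).injective
    simp only
    rw [← norm_rad hσ h1 hκ, ← norm_rad hσ h1 hκ, h]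
  ext i
  have := congrFun h i
  unfold rad at this
  rw [a1] at this
  exact (gq_strictMono hσ _).injective this

theorem rad_surjective (hσ : 0 < σ) (h1 : σ ≤ 1) (hκ : 0 ≤ κ) :
    Function.Surjective (rad (n := n) σ κ b) := fun y => by
  by_cases hy : b ≤ ‖y‖
  · exact ⟨y, rad_of_le hy⟩
  push Not at hy
  have hy0 := norm_nonneg y
  have hc : Continuous fun t : ℝ => max (σ * t) (t - κ * max (b - t) 0) := by fun_prop
  have a0 : max (σ * 0) (0 - κ * max (b - 0) 0) ≤ ‖y‖ := by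
    have : 0 ≤ κ * max (b - 0) 0 := mul_nonneg hκ (le_max_right _ _)
    exact max_le (by linarith) (by linarith)
  have a1 : ‖y‖ ≤ max (σ * b) (b - κ * max (b - b) 0) :=
    (le_max_right _ _).trans' (by simp [hy.le])
  obtain ⟨t, ht, hty⟩ := intermediate_value_Icc (by linarith : 0 ≤ b) hc.continuousOn ⟨a0, a1⟩
  have hc0 : 0 ≤ κ * max (b - t) 0 := mul_nonneg hκ (le_max_right _ _)
  choose x hx using fun i => gq_surj σ hc0 (y i)
  have a2 : ‖x‖ = t := by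
    apply (gq_strictMono hσ (κ * max (b - t) 0)).injective
    rw [← norm_gq hσ hc0, gq_of_nonneg h1 hc0 ht.1]
    simp only [hx]
    exact hty.symm
  refine ⟨x, ?_⟩
  ext i
  unfold rad
  rw [a2, hx]

end rad

/-- a PL bijection which is the identity outside a ball is a PL homeomorphism -/
theorem exists_ofBij [FiniteDimensional ℝ E] {f : E → E} (hf : PLOn f univ)
    (hb : Function.Bijective f) {R : ℝ} (hR : ∀ x, R ≤ ‖x‖ → f x = x) :
    ∃ Φ : ConHomeo (univ : Set E) (univ : Set E), Φ.toFun = f := by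
  have : ProperSpace E := FiniteDimensional.proper ℝ E
  have hc : Continuous f := continuousOn_univ.1 hf.1
  have hp : IsProperMap f := by
    refine isProperMap_iff_tendsto_cocompact.2 ⟨hc, tendsto_id.congr' ?_⟩
    filter_upwards [(isCompact_closedBall (0 : E) R).compl_mem_cocompact] with x hx
    rw [mem_compl_iff, mem_closedBall_zero_iff, not_le] at hx
    exact (hR x hx.le).symm
  have hh : IsHomeomorph f :=
    isHomeomorph_iff_continuous_isClosedMap_bijective.2 ⟨hc, hp.isClosedMap, hb⟩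
  let e := hh.homeomorph
  exact ⟨⟨f, e.symm, mapsTo_univ _ _, mapsTo_univ _ _, fun x _ => e.symm_apply_apply x,
    fun x _ => e.apply_symm_apply x, hf.1, e.symm.continuous.continuousOn, hf.2⟩, rfl⟩

/-- the radial push is a PL homeomorphism of the space -/
theorem exists_rad (n : ℕ) {σ κ : ℝ} (b : ℝ) (hσ : 0 < σ) (h1 : σ ≤ 1) (hκ : 0 ≤ κ) :
    ∃ Φ : ConHomeo (univ : Set (Fin n → ℝ)) (univ : Set (Fin n → ℝ)), Φ.toFun = rad σ κ b :=
  exists_ofBij (pl_rad n σ κ b) ⟨rad_injective hσ h1 hκ, rad_surjective hσ h1 hκ⟩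
    fun _ => rad_of_le

/-- homothety on the inner cube, identity outside the outer cube -/
theorem exists_shrink_cube (n : ℕ) {σ a b : ℝ} (hσ : 0 < σ) (h1 : σ ≤ 1) (hab : a < b) :
    ∃ Φ : ConHomeo (univ : Set (Fin n → ℝ)) (univ : Set (Fin n → ℝ)),
      (∀ x, ‖x‖ ≤ a → Φ.toFun x = σ • x) ∧ (∀ x, b ≤ ‖x‖ → Φ.toFun x = x) ∧
      ∀ x, ‖Φ.toFun x‖ ≤ ‖x‖ := by
  have hκ : 0 ≤ |a| / (b - a) := div_nonneg (abs_nonneg a) (by linarith)
  obtain ⟨Φ, hΦ⟩ := exists_rad n b hσ h1 hκ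
  refine ⟨Φ, fun x hx => ?_, fun x hx => by rw [hΦ, rad_of_le hx],
    fun x => by rw [hΦ]; exact norm_rad_le hσ h1 hκ x⟩
  rw [hΦ]
  refine rad_eq_smul h1 hκ ?_
  have a1 : |a| / (b - a) * (b - a) = |a| := div_mul_cancel₀ _ (by linarith)
  have a2 : |a| / (b - a) * (b - a) ≤ |a| / (b - a) * (b - ‖x‖) :=
    mul_le_mul_of_nonneg_left (by linarith) hκ
  have a3 := le_abs_self a
  have a4 := norm_nonneg x
  nlinarith

/-- compactly supported in the open unit cube -/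
def Sup {n : ℕ} (Ψ : ConHomeo (closedBall (0 : Fin n → ℝ) 1) (closedBall (0 : Fin n → ℝ) 1)) :
    Prop := ∃ b < (1:ℝ), ∀ x ∈ closedBall (0 : Fin n → ℝ) 1, b ≤ ‖x‖ → Ψ.toFun x = x

theorem Sup.symm {n : ℕ} {Ψ : ConHomeo (closedBall (0 : Fin n → ℝ) 1) (closedBall 0 1)}
    (h : Sup Ψ) : Sup Ψ.symm := by
  obtain ⟨b, hb, h⟩ := h
  exact ⟨b, hb, fun x hx hx' => inv_fix Ψ hx (h x hx hx')⟩

theorem Sup.trans {n : ℕ} {Ψ Ψ' : ConHomeo (closedBall (0 : Fin n → ℝ) 1) (closedBall 0 1)}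
    (h : Sup Ψ) (h' : Sup Ψ') : Sup (Ψ.trans Ψ') := by
  obtain ⟨b, hb, h⟩ := h
  obtain ⟨b', hb', h'⟩ := h'
  refine ⟨max b b', max_lt hb hb', fun x hx hx' => ?_⟩
  simp only [ConHomeo.trans_toFun, Function.comp]
  rw [h x hx ((le_max_left _ _).trans hx'), h' x hx ((le_max_right _ _).trans hx')]

theorem Sup.norm_lt {n : ℕ} {Ψ : ConHomeo (closedBall (0 : Fin n → ℝ) 1) (closedBall 0 1)}
    (h : Sup Ψ) {x : Fin n → ℝ} (hx : ‖x‖ < 1) : ‖Ψ.toFun x‖ < 1 := by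
  obtain ⟨b, hb, h⟩ := h
  have := mem_of_fix (W := ball 0 1) Ψ (fun z hz hz' => h z hz (by
    rw [mem_ball_zero_iff, not_lt] at hz'; linarith)) (mem_closedBall_zero_iff.2 hx.le)
    (mem_ball_zero_iff.2 hx)
  exact mem_ball_zero_iff.1 this

theorem conicalSet_cube (n : ℕ) : ConicalSet (closedBall (0 : Fin n → ℝ) 1) :=
  (locCone_closedBall_pi n 1).conicalSet

theorem exists_sup {n : ℕ} (Φ : ConHomeo (univ : Set (Fin n → ℝ)) (univ : Set (Fin n → ℝ)))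
    {b : ℝ} (hb : b < 1) (h : ∀ x, b ≤ ‖x‖ → Φ.toFun x = x) :
    ∃ Ψ : ConHomeo (closedBall (0 : Fin n → ℝ) 1) (closedBall 0 1), Sup Ψ ∧ Ψ.toFun = Φ.toFun := by
  obtain ⟨Ψ, hΨ⟩ := exists_restr (W := ball 0 b) Φ (subset_univ _) (conicalSet_cube n)
    (fun z _ hz => h z (by rwa [mem_ball_zero_iff, not_lt] at hz))
    (ball_subset_closedBall.trans (closedBall_subset_closedBall hb.le))
  exact ⟨Ψ, ⟨b, hb, fun x _ hx => by rw [hΨ, h x hx]⟩, hΨ⟩

theorem move_cube {n : ℕ} {p q : Fin n → ℝ} (hp : ‖p‖ < 1) (hq : ‖q‖ < 1) :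
    ∃ Ψ : ConHomeo (closedBall (0 : Fin n → ℝ) 1) (closedBall 0 1), Sup Ψ ∧ Ψ.toFun p = q := by
  refine (convex_ball (0 : Fin n → ℝ) 1).isPreconnected.induction₂'
    (fun p q => ∃ Ψ : ConHomeo (closedBall (0 : Fin n → ℝ) 1) (closedBall 0 1),
      Sup Ψ ∧ Ψ.toFun p = q) (fun x hx => ?_) ?_ (mem_ball_zero_iff.2 hp) (mem_ball_zero_iff.2 hq)
  · rw [mem_ball_zero_iff] at hx
    have hr : 0 < (1 - ‖x‖) / 2 := by linarith
    filter_upwards [mem_nhdsWithin_of_mem_nhds (closedBall_mem_nhds x (half_pos hr))] with y hy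
    rw [mem_closedBall, dist_eq_norm] at hy
    obtain ⟨Φ, h1, h2, -⟩ := exists_bump_move x (y - x) hr hy
    obtain ⟨Ψ, h3, h4⟩ := exists_sup Φ (b := (1 + ‖x‖) / 2) (by linarith) fun z hz => h2 z (by
      rw [mem_ball, dist_eq_norm, not_lt]
      have := norm_sub_norm_le z x
      linarith)
    have h5 : Ψ.toFun x = y := by rw [h4, h1, add_sub_cancel]
    refine ⟨⟨Ψ, h3, h5⟩, Ψ.symm, h3.symm, ?_⟩
    rw [← h5]
    exact Ψ.left_inv (mem_closedBall_zero_iff.2 hx.le)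
  · rintro x y z - - - ⟨Ψ, h1, h2⟩ ⟨Ψ', h3, h4⟩
    exact ⟨Ψ.trans Ψ', h1.trans h3, by simp [h2, h4]⟩

theorem shrink_cube {n : ℕ} {K U : Set (Fin n → ℝ)} {q : Fin n → ℝ} (hK : IsCompact K)
    (hK1 : ∀ x ∈ K, ‖x‖ < 1) (hq : ‖q‖ < 1) (hU : U ∈ 𝓝[closedBall 0 1] q) :
    ∃ Ψ : ConHomeo (closedBall (0 : Fin n → ℝ) 1) (closedBall 0 1), Sup Ψ ∧ Ψ.toFun q = q ∧
      ∀ x ∈ K, Ψ.toFun x ∈ U := by
  obtain ⟨M, hM, hMq⟩ := move_cube hq (by simp : ‖(0 : Fin n → ℝ)‖ < 1)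
  have hq' : q ∈ closedBall (0 : Fin n → ℝ) 1 := mem_closedBall_zero_iff.2 hq.le
  have h0 : (0 : Fin n → ℝ) ∈ closedBall (0 : Fin n → ℝ) 1 := mem_closedBall_self zero_le_one
  have hM0 : M.invFun 0 = q := by have := M.left_inv hq'; rwa [hMq] at this
  have hKQ : K ⊆ closedBall 0 1 := fun x hx => mem_closedBall_zero_iff.2 (hK1 x hx).le
  obtain ⟨a, ha, haK⟩ : ∃ a < (1:ℝ), ∀ x ∈ K, ‖M.toFun x‖ ≤ a := by
    rcases K.eq_empty_or_nonempty with h | h
    · exact ⟨0, zero_lt_one, by simp [h]⟩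
    · obtain ⟨x, hx, hx'⟩ := hK.exists_isMaxOn h (M.cont.mono hKQ).norm
      exact ⟨_, hM.norm_lt (hK1 x hx), fun y hy => hx' hy⟩
  have hU' : M.invFun ⁻¹' U ∈ 𝓝[closedBall 0 1] (0 : Fin n → ℝ) := by
    have := (M.cont_inv 0 h0).tendsto_nhdsWithin M.mapsTo_inv
    rw [hM0] at this
    exact this hU
  obtain ⟨ε, hε, hεU⟩ := Metric.mem_nhdsWithin_iff.1 hU'
  have hσ : 0 < min (ε / 2) 1 := lt_min (half_pos hε) zero_lt_one
  obtain ⟨Φ, h1, h2, -⟩ := exists_shrink_cube n hσ (min_le_right _ _)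
    (show max a 0 < (1 + max a 0) / 2 by have := max_lt ha zero_lt_one; linarith)
  obtain ⟨Ψ, h3, h4⟩ := exists_sup Φ (by have := max_lt ha zero_lt_one; linarith) h2
  refine ⟨M.trans (Ψ.trans M.symm), hM.trans (h3.trans hM.symm), ?_, fun x hx => ?_⟩
  · simp only [ConHomeo.trans_toFun, Function.comp, ConHomeo.symm_toFun, hMq, h4]
    rw [h1 0 (by simp), smul_zero, hM0]
  · simp only [ConHomeo.trans_toFun, Function.comp, ConHomeo.symm_toFun]
    refine hεU ⟨?_, Ψ.mapsTo (M.mapsTo (hKQ hx))⟩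
    rw [h4, h1 _ ((haK x hx).trans (le_max_left _ _)), mem_ball_zero_iff, norm_smul,
      Real.norm_of_nonneg hσ.le]
    have a1 := min_le_left (ε / 2) 1
    have a2 := haK x hx
    have a3 := norm_nonneg (M.toFun x)
    nlinarith

theorem norm_lt_one {n : ℕ} {C B : Set E} (φ : ConHomeo C (closedBall (0 : Fin n → ℝ) 1))
    (hBC : B ⊆ C) (hφ : φ.toFun '' B = sphere 0 1) {x : E} (hx : x ∈ C) :
    ‖φ.toFun x‖ < 1 ↔ x ∉ B := by
  have h1 := mem_closedBall_zero_iff.1 (φ.mapsTo hx)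
  constructor
  · intro h hB
    have : φ.toFun x ∈ sphere (0 : Fin n → ℝ) 1 := hφ ▸ mem_image_of_mem _ hB
    exact h.ne (mem_sphere_zero_iff_norm.1 this)
  · intro h
    refine lt_of_le_of_ne h1 fun h2 => h ?_
    have : φ.toFun x ∈ φ.toFun '' B := hφ ▸ mem_sphere_zero_iff_norm.2 h2
    obtain ⟨y, hy, hyx⟩ := this
    rwa [← φ.injOn (hBC hy) hx hyx]

/-- transport of a compactly supported map of the cube -/
theorem exists_conj {n : ℕ} {C B : Set E} (φ : ConHomeo C (closedBall (0 : Fin n → ℝ) 1))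
    (hBC : B ⊆ C) (hφ : φ.toFun '' B = sphere 0 1)
    {Ψ : ConHomeo (closedBall (0 : Fin n → ℝ) 1) (closedBall 0 1)} (h : Sup Ψ) :
    ∃ (Φ : ConHomeo C C) (K' : Set E), IsCompact K' ∧ K' ⊆ C \ B ∧
      (∀ x ∈ C \ K', Φ.toFun x = x) ∧ ∀ x, Φ.toFun x = φ.invFun (Ψ.toFun (φ.toFun x)) := by
  obtain ⟨b, hb, h⟩ := h
  have hs : closedBall (0 : Fin n → ℝ) b ⊆ closedBall 0 1 := closedBall_subset_closedBall hb.le
  refine ⟨φ.trans (Ψ.trans φ.symm), φ.invFun '' closedBall 0 b,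
    (isCompact_closedBall _ _).image_of_continuousOn (φ.cont_inv.mono hs), ?_, ?_, fun _ => rfl⟩
  · rintro _ ⟨y, hy, rfl⟩
    refine ⟨φ.mapsTo_inv (hs hy), (norm_lt_one φ hBC hφ (φ.mapsTo_inv (hs hy))).1 ?_⟩
    rw [φ.right_inv (hs hy)]
    exact (mem_closedBall_zero_iff.1 hy).trans_lt hb
  · rintro x ⟨hx, hx'⟩
    have : b ≤ ‖φ.toFun x‖ := by
      by_contra hlt
      exact hx' ⟨_, mem_closedBall_zero_iff.2 (not_le.1 hlt).le, φ.left_inv hx⟩
    simp only [ConHomeo.trans_toFun, Function.comp, ConHomeo.symm_toFun]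
    rw [h _ (φ.mapsTo hx) this, φ.left_inv hx]

theorem preimage_mem {C : Set E} {Q : Set F} (φ : ConHomeo C Q) {q : E} (hq : q ∈ C) {U : Set E}
    (hU : U ∈ 𝓝[C] q) : φ.invFun ⁻¹' U ∈ 𝓝[Q] (φ.toFun q) := by
  have := (φ.cont_inv _ (φ.mapsTo hq)).tendsto_nhdsWithin φ.mapsTo_inv
  rw [φ.left_inv hq] at this
  exact this hU

end PU

open PU

theorem move_thm : MOVE := by
  rintro E _ _ n C B p q ⟨hBC, φ, hφ⟩ hp hq
  obtain ⟨Ψ, h1, h2⟩ := move_cube ((norm_lt_one φ hBC hφ hp.1).2 hp.2)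
    ((norm_lt_one φ hBC hφ hq.1).2 hq.2)
  obtain ⟨Φ, K', a1, a2, a3, a4⟩ := exists_conj φ hBC hφ h1
  exact ⟨Φ, K', a1, a2, a3, by rw [a4, h2, φ.left_inv hq.1]⟩

theorem shrink_thm : SHRINK := by
  rintro E _ _ n C B K U q ⟨hBC, φ, hφ⟩ hK hKC hq hU
  obtain ⟨Ψ, h1, h2, h3⟩ := shrink_cube (K := φ.toFun '' K)
    (hK.image_of_continuousOn (φ.cont.mono fun x hx => (hKC hx).1))
    (by rintro _ ⟨x, hx, rfl⟩; exact (norm_lt_one φ hBC hφ (hKC hx).1).2 (hKC hx).2)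
    ((norm_lt_one φ hBC hφ hq.1).2 hq.2)
    (preimage_mem φ hq.1 (mem_nhdsWithin_of_mem_nhds hU))
  obtain ⟨Φ, K', a1, a2, a3, a4⟩ := exists_conj φ hBC hφ h1
  refine ⟨Φ, K', a1, a2, a3, ?_, by rw [a4, h2, φ.left_inv hq.1]⟩
  rintro _ ⟨x, hx, rfl⟩
  rw [a4]
  exact h3 _ (mem_image_of_mem _ hx)

theorem emb : EMB := by
  rintro E _ _ n C B U q ⟨hBC, φ, hφ⟩ hq hU
  have h1 := (norm_lt_one φ hBC hφ hq.1).2 hq.2
  obtain ⟨ε, hε, hεU⟩ := Metric.mem_nhdsWithin_iff.1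
    (preimage_mem φ hq.1 (mem_nhdsWithin_of_mem_nhds hU))
  set c := φ.toFun q with hc
  obtain ⟨δ, hδ, hδ1, hδ2⟩ : ∃ δ : ℝ, 0 < δ ∧ 4 * δ ≤ ε ∧ 4 * δ ≤ 1 - ‖c‖ :=
    ⟨min ε (1 - ‖c‖) / 4, by have := lt_min hε (sub_pos.2 h1); linarith,
      by have := min_le_left ε (1 - ‖c‖); linarith, by have := min_le_right ε (1 - ‖c‖); linarith⟩
  have hc0 := norm_nonneg c
  let m : ℝ → ℝ := fun s => δ * s + (1 - δ) * max (min s δ) (-δ)
  have hm : StrictMono m := fun s t h => by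
    have a1 : max (min s δ) (-δ) ≤ max (min t δ) (-δ) :=
      max_le_max (min_le_min h.le le_rfl) le_rfl
    have a2 := mul_le_mul_of_nonneg_left a1 (by linarith : 0 ≤ 1 - δ)
    have a3 := mul_lt_mul_of_pos_left h hδ
    simp only [m]
    linarith
  let f : (Fin n → ℝ) → (Fin n → ℝ) := fun x i => c i + m (x i - c i)
  have hQ := conicalSet_cube n
  have hf : PLOn f (closedBall 0 1) := by
    refine pl_pi hQ fun i => pl_add (pl_const _ hQ) ?_
    have a1 := pl_sub (pl_proj i hQ) (pl_const (c i) hQ)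
    exact pl_add (pl_mul δ a1) (pl_mul _ (pl_max (pl_min a1 (pl_const _ hQ)) (pl_const _ hQ)))
  have hinj : InjOn f (closedBall 0 1) := fun x _ y _ h => by
    ext i
    have := hm.injective (add_left_cancel (congrFun h i))
    linarith
  have hb : ∀ x ∈ closedBall (0 : Fin n → ℝ) 1, ‖f x - c‖ ≤ 3 * δ := fun x hx => by
    refine (pi_norm_le_iff_of_nonneg (by linarith)).2 fun i => ?_
    have a1 := abs_le.1 ((norm_le_pi_norm x i).trans (mem_closedBall_zero_iff.1 hx))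
    have a2 := abs_le.1 ((norm_le_pi_norm c i).trans h1.le)
    have a3 : max (min (x i - c i) δ) (-δ) ≤ δ := max_le (min_le_right _ _) (by linarith)
    have a4 : -δ ≤ max (min (x i - c i) δ) (-δ) := le_max_right _ _
    simp only [f, m, Pi.sub_apply, add_sub_cancel_left, Real.norm_eq_abs]
    rw [abs_le]
    constructor <;> nlinarith
  have hsub : f '' closedBall 0 1 ⊆ closedBall 0 1 := by
    rintro _ ⟨x, hx, rfl⟩
    have a1 := hb x hx
    have a2 := norm_sub_norm_le (f x) c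
    rw [mem_closedBall_zero_iff]
    linarith
  let τ := ConHomeo.ofCompact (isCompact_closedBall (0 : Fin n → ℝ) 1) f hf.1 hinj hf.2 rfl
  have hτ : τ.toFun = f := ConHomeo.ofCompact_toFun _ _ _ _ _ _
  refine ⟨_, φ.trans (τ.trans (φ.symm.restr τ.conicalSet_right hsub)), ?_, ?_⟩
  · rintro _ ⟨_, ⟨x, hx, rfl⟩, rfl⟩
    refine ⟨φ.mapsTo_inv (hsub (mem_image_of_mem _ hx)), hεU ⟨?_, hsub (mem_image_of_mem _ hx)⟩⟩
    rw [mem_ball, dist_eq_norm]
    have := hb x hx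
    linarith
  · filter_upwards [φ.cont q hq.1 (closedBall_mem_nhds c hδ), self_mem_nhdsWithin] with x hx hxC
    have a1 : f (φ.toFun x) = φ.toFun x := by
      ext i
      have a2 : ‖φ.toFun x - c‖ ≤ δ := by
        rwa [mem_preimage, mem_closedBall, dist_eq_norm] at hx
      have a3 := abs_le.1 ((norm_le_pi_norm _ i).trans a2)
      rw [Pi.sub_apply] at a3
      simp only [f, m]
      rw [min_eq_left a3.2, max_eq_left a3.1]
      ring
    show φ.invFun (τ.toFun (φ.toFun x)) = x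
    rw [hτ, a1, φ.left_inv hxC]

end P073
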