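import Vale.Agent.P073Z.Sk1
import Vale.Agent.P073Z.A2.PL

/-!
# Near identity maps, one-coordinate pushes, bump moves
-/

open Set Metric Topology Filter
open scoped NNReal

namespace P073

open A2

theorem nearid : NEARID := by
  intro E _ _ _ φ hc hl
  have : CompleteSpace E := FiniteDimensional.complete ℝ E
  have ha : ApproximatesLinearOn (fun x => x + φ x)
      ((ContinuousLinearEquiv.refl ℝ E : E ≃L[ℝ] E) : E →L[ℝ] E) univ (1 / 2) := by
    intro x _ y _
    have h1 := hl.dist_le_mul x y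
    rw [dist_eq_norm, dist_eq_norm] at h1
    have h2 : x + φ x - (y + φ y) - (x - y) = φ x - φ y := by abel
    simpa [h2] using h1
  have hc' : Subsingleton E ∨ (1 / 2 : ℝ≥0) <
      ‖(((ContinuousLinearEquiv.refl ℝ E : E ≃L[ℝ] E).symm : E ≃L[ℝ] E) : E →L[ℝ] E)‖₊⁻¹ := by
    rcases subsingleton_or_nontrivial E with h | h
    · exact Or.inl h
    · right
      have : (((ContinuousLinearEquiv.refl ℝ E : E ≃L[ℝ] E).symm : E ≃L[ℝ] E) : E →L[ℝ] E)
        = ContinuousLinearMap.id ℝ E := rfl
      rw [this, ContinuousLinearMap.nnnorm_id]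
      norm_num
  let e := ha.toHomeomorph _ hc'
  have he : ∀ x, e x = x + φ x := fun _ => rfl
  refine ⟨⟨e, e.symm, mapsTo_univ _ _, mapsTo_univ _ _, fun x _ => e.symm_apply_apply x,
    fun x _ => e.apply_symm_apply x, e.continuous.continuousOn, e.symm.continuous.continuousOn,
    ?_⟩, he⟩
  exact ((conicalOn_id conicalSet_univ).add hc).congr fun x _ => he x

theorem push_thm : PUSH := by
  intro n i g hg hm hs
  classical
  choose s hs' using fun y : Fin n → ℝ => hs y (y i)
  have hgc : Continuous g := continuousOn_univ.1 hg.1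
  have hsc : Continuous s := by
    refine continuous_iff_continuousAt.2 fun y => tendsto_order.2 ⟨fun a ha => ?_, fun a ha => ?_⟩
    · have h1 : g (Function.update y i a) < y i := (hm y ha).trans_eq (hs' y)
      have h2 : Continuous fun z : Fin n → ℝ => g (Function.update z i a) :=
        hgc.comp (continuous_id.update i continuous_const)
      filter_upwards [h2.continuousAt.eventually_lt (continuous_apply i).continuousAt h1] with z hz
      rw [← hs' z] at hz
      exact (hm z).lt_iff_lt.1 hz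
    · have h1 : y i < g (Function.update y i a) := (hs' y).symm.trans_lt (hm y ha)
      have h2 : Continuous fun z : Fin n → ℝ => g (Function.update z i a) :=
        hgc.comp (continuous_id.update i continuous_const)
      filter_upwards [(continuous_apply i).continuousAt.eventually_lt h2.continuousAt h1] with z hz
      rw [← hs' z] at hz
      exact (hm z).lt_iff_lt.1 hz
  have hpl : PLOn (fun x : Fin n → ℝ => Function.update x i (g x)) univ := by
    refine pl_pi conicalSet_univ fun j => ?_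
    by_cases h : j = i
    · subst h; simpa using hg
    · simpa [Function.update_of_ne h] using pl_proj j conicalSet_univ
  refine ⟨⟨fun x => Function.update x i (g x), fun y => Function.update y i (s y),
    mapsTo_univ _ _, mapsTo_univ _ _, fun x _ => ?_, fun y _ => ?_, hpl.1,
    (continuous_id.update i hsc).continuousOn, hpl.2⟩, fun _ => rfl⟩
  · have h1 := hs' (Function.update x i (g x))
    simp only [Function.update_idem, Function.update_self] at h1
    have h2 : s (Function.update x i (g x)) = x i := by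
      apply (hm x).injective
      simp only [Function.update_eq_self]
      exact h1
    simp only [Function.update_idem, h2, Function.update_eq_self]
  · have h1 := hs' y
    simp only at h1
    simp only [Function.update_idem, h1, Function.update_eq_self]

namespace PU

variable {E F : Type} [NormedAddCommGroup E] [NormedSpace ℝ E]
  [NormedAddCommGroup F] [NormedSpace ℝ F]

/-- a homeomorphism which is the identity outside `W` preserves `W` -/
theorem mem_of_fix {X W : Set E} (Φ : ConHomeo X X) (hW : ∀ z ∈ X, z ∉ W → Φ.toFun z = z)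
    {z : E} (hz : z ∈ X) (h : z ∈ W) : Φ.toFun z ∈ W := by
  by_contra h'
  have h1 := hW _ (Φ.mapsTo hz) h'
  have h2 := Φ.injOn (Φ.mapsTo hz) hz h1
  exact h' (h2.symm ▸ h)

theorem inv_fix {X : Set E} (Φ : ConHomeo X X) {z : E} (hz : z ∈ X) (h : Φ.toFun z = z) :
    Φ.invFun z = z := by
  have := Φ.left_inv hz
  rwa [h] at this

/-- invariance of a set, tested in the support only -/
theorem image_eq_of_fix {X W Y : Set E} (Φ : ConHomeo X X) (hY : Y ⊆ X)
    (hW : ∀ z ∈ X, z ∉ W → Φ.toFun z = z)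
    (h : ∀ z ∈ X, z ∈ W → Φ.toFun z ∈ W → (Φ.toFun z ∈ Y ↔ z ∈ Y)) : Φ.toFun '' Y = Y := by
  have key : ∀ z ∈ X, (Φ.toFun z ∈ Y ↔ z ∈ Y) := fun z hz => by
    by_cases hz' : z ∈ W
    · exact h z hz hz' (mem_of_fix Φ hW hz hz')
    · rw [hW z hz hz']
  apply Subset.antisymm
  · rintro _ ⟨z, hz, rfl⟩
    exact (key z (hY hz)).2 hz
  · intro y hy
    refine ⟨Φ.invFun y, ?_, Φ.right_inv (hY hy)⟩
    rw [← key _ (Φ.mapsTo_inv (hY hy)), Φ.right_inv (hY hy)]
    exact hy

/-- restriction of a compactly supported map -/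
theorem exists_restr {X W Y : Set E} (Φ : ConHomeo X X) (hY : Y ⊆ X) (hc : ConicalSet Y)
    (hW : ∀ z ∈ X, z ∉ W → Φ.toFun z = z) (h : W ⊆ Y) :
    ∃ Ψ : ConHomeo Y Y, Ψ.toFun = Φ.toFun :=
  ⟨(Φ.restr hc hY).cast rfl
    (image_eq_of_fix Φ hY hW fun _ _ h1 h2 => ⟨fun _ => h h1, fun _ => h h2⟩), rfl⟩

theorem inv_image {X Y : Set E} (Φ : ConHomeo X X) (hY : Y ⊆ X) (h : Φ.toFun '' Y = Y) :
    Φ.invFun '' Y = Y := by
  conv_lhs => rw [← h]
  rw [image_image]
  have : ∀ x ∈ Y, Φ.invFun (Φ.toFun x) = x := fun x hx => Φ.left_inv (hY hx)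
  rw [image_congr this, image_id']

/-- a small move of a point, supported in a small cube, along a fixed direction -/
theorem exists_bump_move {n : ℕ} (p v : Fin n → ℝ) {r : ℝ} (hr : 0 < r) (hv : ‖v‖ ≤ r / 2) :
    ∃ Φ : ConHomeo (univ : Set (Fin n → ℝ)) (univ : Set (Fin n → ℝ)), Φ.toFun p = p + v ∧
      (∀ x, x ∉ ball p r → Φ.toFun x = x) ∧ ∀ x, ∃ t : ℝ, Φ.toFun x = x + t • v := by
  have h0 : PLOn (fun x : Fin n → ℝ => max (r - ‖x - p‖) 0) univ :=
    pl_max (pl_sub (pl_const _ conicalSet_univ) (pl_comp_univ (pl_norm_pi n)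
      (pl_sub (pl_id conicalSet_univ) (pl_const _ conicalSet_univ)))) (pl_const _ conicalSet_univ)
  have h1 : PLOn (fun x : Fin n → ℝ => (max (r - ‖x - p‖) 0) • (r⁻¹ • v)) univ :=
    pl_comp_univ (pl_clm (ContinuousLinearMap.toSpanSingleton ℝ (r⁻¹ • v)) conicalSet_univ) h0
  have h2 : LipschitzWith (1 / 2) (fun x : Fin n → ℝ => (max (r - ‖x - p‖) 0) • (r⁻¹ • v)) := by
    refine LipschitzWith.of_dist_le_mul fun x y => ?_
    rw [dist_eq_norm, ← sub_smul, norm_smul, norm_smul, dist_eq_norm, Real.norm_eq_abs,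
      Real.norm_eq_abs, abs_of_pos (inv_pos.2 hr)]
    have a1 : |max (r - ‖x - p‖) 0 - max (r - ‖y - p‖) 0| ≤ ‖x - y‖ := by
      refine (abs_max_sub_max_le_abs _ _ _).trans ?_
      have := abs_norm_sub_norm_le (y - p) (x - p)
      rw [show y - p - (x - p) = -(x - y) by abel, norm_neg] at this
      rwa [show r - ‖x - p‖ - (r - ‖y - p‖) = ‖y - p‖ - ‖x - p‖ by ring]
    have a2 : r⁻¹ * ‖v‖ ≤ 1 / 2 := by
      rw [inv_mul_le_iff₀ hr]; linarith
    have a3 : ((1 / 2 : ℝ≥0) : ℝ) = 1 / 2 := by norm_num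
    rw [a3, mul_comm (1 / 2 : ℝ)]
    exact mul_le_mul a1 a2 (by positivity) (norm_nonneg _)
  obtain ⟨Φ, hΦ⟩ := nearid h1.2 h2
  refine ⟨Φ, ?_, fun x hx => ?_, fun x => ⟨max (r - ‖x - p‖) 0 * r⁻¹, ?_⟩⟩
  · rw [hΦ, sub_self, norm_zero, sub_zero, max_eq_left hr.le, smul_smul, mul_inv_cancel₀ hr.ne',
      one_smul]
  · rw [mem_ball, dist_eq_norm, not_lt] at hx
    rw [hΦ, max_eq_right (by linarith), zero_smul, add_zero]
  · rw [hΦ, smul_smul]

end PU

end P073
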